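import Vale.Agent.P242W.Rows

/-!
# P242W: the inequality of norms
-/

open MeasureTheory Set Filter Topology unitInterval
open scoped ENNReal NNReal

universe u

namespace Vale.Agent.P242W

open P233.Met (RSlope Good)

variable {X : Type u} [MetricSpace X] [MeasurableSpace X]

omit [MetricSpace X] in
theorem eLp_eq {m : Measure X} {a : X → ℝ} (ha : MemLp a 2 m) :
    eLpNorm a 2 m = ENNReal.ofReal √(∫ x, a x ^ 2 ∂m) := by
  rw [ha.eLpNorm_eq_integral_rpow_norm two_ne_zero ENNReal.ofNat_ne_top, Real.sqrt_eq_rpow]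
  simp

theorem norm [MeasurableSpace C(I, X)] (hP : PROJ X) (hK : KEY X) : NORM X := by
  intro m _ x R hR f G M hM hG
  have hf := hG.1.1
  have hGL := hG.1.2.1
  set g := √(∫ y, G y ^ 2 ∂m) with hg
  have g0 : 0 ≤ g := Real.sqrt_nonneg _
  have key : ∀ τ : ℝ, 0 < τ → ∃ u b, RSlope m u b ∧
      eLpNorm (u - f) 2 m ≤ ENNReal.ofReal (√τ * g) ∧ eLpNorm b 2 m ≤ ENNReal.ofReal g := by
    intro τ hτ
    obtain ⟨u, b, h, B, hub, hm, hB, he, h0, h1, h2⟩ := hP m f M τ hf.1 hM hτ
    set β := √(∫ y, b y ^ 2 ∂m) with hβ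
    have β0 : 0 ≤ β := Real.sqrt_nonneg _
    have hβ2 : β ^ 2 = ∫ y, b y ^ 2 ∂m := Real.sq_sqrt (integral_nonneg fun _ => sq_nonneg _)
    have k := hK m x R hR f G h hG hm B β hB h0 β0 h2
    have hh : MemLp h 2 m := MemLp.of_bound hm.aestronglyMeasurable B
      (Eventually.of_forall fun y => by rw [Real.norm_eq_abs]; exact hB y)
    have i1 : Integrable (fun y => u y * h y) m := hub.1.integrable_mul hh
    have e : ∫ y, f y * h y ∂m = β ^ 2 + τ * ∫ y, h y ^ 2 ∂m := by
      rw [hβ2, ← h1, ← integral_const_mul, ← integral_add i1 (hh.integrable_sq.const_mul τ)]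
      refine integral_congr_ae ?_
      filter_upwards [he] with y hy
      have : f y = u y + τ * h y := by linarith
      rw [this]
      ring
    have n0 : 0 ≤ ∫ y, h y ^ 2 ∂m := integral_nonneg fun _ => sq_nonneg _
    have a1 : β ≤ g := by
      by_contra hc
      push Not at hc
      nlinarith [mul_nonneg hτ.le n0]
    have a2 : τ * ∫ y, h y ^ 2 ∂m ≤ g ^ 2 := by nlinarith
    refine ⟨u, b, hub, ?_, ?_⟩
    · rw [eLp_eq (hub.1.sub hf)]
      refine ENNReal.ofReal_le_ofReal (Real.sqrt_le_iff.2 ⟨by positivity, ?_⟩)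
      have : ∫ y, (u - f) y ^ 2 ∂m = τ * (τ * ∫ y, h y ^ 2 ∂m) := by
        rw [← integral_const_mul, ← integral_const_mul]
        refine integral_congr_ae ?_
        filter_upwards [he] with y hy
        have : u y - f y = -(τ * h y) := by linarith
        rw [Pi.sub_apply, this]
        ring
      rw [this, mul_pow, Real.sq_sqrt hτ.le]
      exact mul_le_mul_of_nonneg_left a2 hτ.le
    · rw [eLp_eq hub.2.1]
      exact ENNReal.ofReal_le_ofReal a1
  obtain ⟨S, hS, hS'⟩ := P233.Met.exists_rSlope_of_bounded hf (C := g.toNNReal) fun ε hε => by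
    have t : Tendsto (fun τ : ℝ => ENNReal.ofReal (√τ * g)) (𝓝[>] 0) (𝓝 0) := by
      have c : Continuous fun τ : ℝ => ENNReal.ofReal (√τ * g) :=
        ENNReal.continuous_ofReal.comp (by fun_prop)
      simpa using (c.tendsto 0).mono_left (nhdsWithin_le_nhds (s := Ioi 0))
    obtain ⟨τ, h1, h2⟩ :=
      ((t.eventually (ge_mem_nhds (pos_iff_ne_zero.2 hε))).and self_mem_nhdsWithin).exists
    obtain ⟨u, b, k1, k2, k3⟩ := key τ h2
    exact ⟨u, b, k1, k2.trans h1, k3⟩
  exact ⟨S, hS, hS'.trans (eLp_eq hGL).ge⟩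

end Vale.Agent.P242W
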