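import Vale.Agent.P242W.Defs
import Vale.Agent.P233.Bd3.B6
import Vale.Agent.P242W70.Kuw
import Vale.Agent.P242W72.Lisini

/-!
# P242W: the rows (as propositions) and the glue
-/

open MeasureTheory Set Filter Topology unitInterval
open scoped ENNReal NNReal

universe u

namespace Vale.Agent.P242W

open P233.Met (RSlope Good)

theorem relaxed_iff {X : Type u} [MetricSpace X] [MeasurableSpace X] {m : Measure X}
    {f G : X → ℝ} : P233.T.IsRelaxedSlope m f G ↔ RSlope m f G := Iff.rfl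

section Curve

variable (X : Type u) [MetricSpace X]

/-- measurability of the speed of one curve -/
def SPM1 : Prop := ∀ γ : C(I, X), Measurable (speed γ)

/-- the speed is bounded by every integrable majorant -/
def SPD : Prop := ∀ (γ : C(I, X)) (g : I → ℝ), Integrable g →
  (∀ s t : I, s ≤ t → dist (γ s) (γ t) ≤ ∫ r in Icc s t, g r) → ∀ᵐ t, speed γ t ≤ ‖g t‖ₑ

/-- the metric derivative exists almost everywhere and is itself a majorant -/
def SPL : Prop := ∀ γ : C(I, X), IsAC 1 γ →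
  (∀ᵐ t, speed γ t < ∞ ∧
    Tendsto (fun s => edist (γ s) (γ t) / edist s t) (𝓝[≠] t) (𝓝 (speed γ t))) ∧
  ∀ s t : I, s ≤ t → edist (γ s) (γ t) ≤ ∫⁻ r in Icc s t, speed γ r

/-- finite dyadic energy gives `AC²` and bounds the kinetic energy -/
def ENG : Prop := ∀ γ : C(I, X), P242W72.Ed γ < ∞ →
  IsAC 2 γ ∧ ∫⁻ t, speed γ t ^ 2 ≤ P242W72.Ed γ

/-- the slope of a Lipschitz function is an upper gradient along absolutely continuous curves -/
def UGL : Prop := ∀ (u : X → ℝ) (K : ℝ≥0), LipschitzWith K u → ∀ γ : C(I, X), IsAC 1 γ →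
  ∀ s t : I, s ≤ t →
    ‖u (γ t) - u (γ s)‖ₑ ≤ ∫⁻ r in Icc s t, P233.lipAt u (γ r) * speed γ r

end Curve

variable (X : Type u) [MetricSpace X] [MeasurableSpace X]

/-- projection on the cone of relaxed pairs (one resolvent step) -/
def PROJ : Prop := ∀ (m : Measure X) [IsFiniteMeasure m] (f : X → ℝ) (M τ : ℝ),
  AEStronglyMeasurable f m → (∀ x, |f x| ≤ M) → 0 < τ →
  ∃ (u b h : X → ℝ) (B : ℝ), RSlope m u b ∧ Measurable h ∧ (∀ x, |h x| ≤ B) ∧
    (∀ᵐ x ∂m, f x - u x = τ * h x) ∧ ∫ x, h x ∂m = 0 ∧ ∫ x, u x * h x ∂m = ∫ x, b x ^ 2 ∂m ∧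
    ∀ v g, Good m v g → ∫ x, v x * h x ∂m ≤ √(∫ x, b x ^ 2 ∂m) * √(∫ x, g x ^ 2 ∂m)

/-- relaxed slopes are Newtonian weak upper gradients (Fuglede) -/
def NEW1 : Prop := ∀ (m : Measure X) (f G : X → ℝ), RSlope m f G → IsNewtonUG m f G

/-- cut-off: from balls and truncations to the whole space -/
def CUT : Prop := ∀ (m : Measure X) (f G : X → ℝ), MemLp f 2 m → MemLp G 2 m →
  (∀ (x : X) (R N : ℝ), 0 < R → 0 < N →
    RSlope (m.restrict (Metric.ball x R)) (fun y => max (min (f y) N) (-N)) G) → RSlope m f G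

variable [MeasurableSpace C(I, X)]

/-- joint measurability of the speed -/
def SPM : Prop := Measurable fun p : C(I, X) × I => speed p.1 p.2

/-- bounded compression: Cauchy-Schwarz, measurability and null sets -/
def CS : Prop := ∀ (m : Measure X) (π : Measure C(I, X)) [IsProbabilityMeasure π] (C : ℝ≥0),
  (∀ t : I, π.map (fun γ => γ t) ≤ C • m) →
  (∀ ρ : X → ℝ≥0∞, AEMeasurable ρ m → AEMeasurable (lineInt ρ) π ∧
    ∫⁻ γ, lineInt ρ γ ∂π ≤ (C * ∫⁻ x, ρ x ^ 2 ∂m) ^ (1 / 2 : ℝ) *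
      (∫⁻ γ, ∫⁻ t, speed γ t ^ 2 ∂volume ∂π) ^ (1 / 2 : ℝ)) ∧
  ∀ P : X → Prop, (∀ᵐ x ∂m, P x) → (∀ᵐ γ ∂π, ∀ᵐ t, P (γ t)) ∧ ∀ t : I, ∀ᵐ γ ∂π, P (γ t)

/-- Newtonian weak upper gradients are weak upper gradients for test plans -/
def NEW2 : Prop := ∀ (m : Measure X) (f G : X → ℝ), IsNewtonUG m f G → IsWeakUG m f G

/-- the direct easy side (hedge: it also follows from `NEW1` and `NEW2`) -/
def EASY : Prop := ∀ (m : Measure X) (f G : X → ℝ), RSlope m f G → IsWeakUG m f G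

/-- Kuwada + Lisini on the linear curve of densities -/
def KEY : Prop := ∀ (m : Measure X) [IsFiniteMeasure m] (x : X) (R : ℝ),
  (∀ᵐ y ∂m, dist y x ≤ R) → ∀ f G h : X → ℝ, IsIntUG m f G → Measurable h →
  ∀ B N : ℝ, (∀ y, |h y| ≤ B) → ∫ y, h y ∂m = 0 → 0 ≤ N →
  (∀ v g, Good m v g → ∫ y, v y * h y ∂m ≤ N * √(∫ y, g y ^ 2 ∂m)) →
  ∫ y, f y * h y ∂m ≤ N * √(∫ y, G y ^ 2 ∂m)

/-- the inequality of norms -/
def NORM : Prop := ∀ (m : Measure X) [IsFiniteMeasure m] (x : X) (R : ℝ),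
  (∀ᵐ y ∂m, dist y x ≤ R) → ∀ (f G : X → ℝ) (M : ℝ), (∀ y, |f y| ≤ M) → IsIntUG m f G →
  ∃ S, RSlope m f S ∧ eLpNorm S 2 m ≤ eLpNorm G 2 m

/-- the pointwise inequality, by weights -/
def PT : Prop := ∀ (m : Measure X) [IsFiniteMeasure m] (x : X) (R : ℝ),
  (∀ᵐ y ∂m, dist y x ≤ R) → ∀ (f G : X → ℝ) (M : ℝ), (∀ y, |f y| ≤ M) → IsIntUG m f G →
  RSlope m f G

/-- smaller measures and `1`-Lipschitz compositions keep integrated weak upper gradients -/
def RES : Prop := ∀ (m m' : Measure X) (f G : X → ℝ) (φ : ℝ → ℝ), m' ≤ m →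
  LipschitzWith 1 φ → φ 0 = 0 → IsIntUG m f G → IsIntUG m' (fun x => φ (f x)) G

/-- the hard side -/
def HARD : Prop := ∀ (m : Measure X), (∀ B, Bornology.IsBounded B → m B < ∞) →
  ∀ f G : X → ℝ, IsIntUG m f G → RSlope m f G

variable {X}

theorem IsWeakUG.int {m : Measure X} {f G : X → ℝ} (h : IsWeakUG m f G) : IsIntUG m f G :=
  ⟨h.1, fun π hπ => lintegral_mono_ae (h.2 π hπ)⟩

end Vale.Agent.P242W
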