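import Vale.Agent.P242W.Glue
import Vale.Agent.P242W.Norm
import Vale.Agent.P242W13.Pt
import Vale.Agent.P242W39.Rows
import Vale.Agent.P242W55.Proj
import Vale.Agent.P242W63.Cut

/-!
# P242W: weak upper gradients are relaxed slopes (the hard side)
-/

open MeasureTheory unitInterval

universe u

namespace Vale.Agent.P242W

theorem hard_side (X : Type u) [MetricSpace X] [CompleteSpace X] [SecondCountableTopology X]
    [MeasurableSpace X] [BorelSpace X] [MeasurableSpace C(I, X)] [BorelSpace C(I, X)] : HARD X :=
  hard (P242W13.pt (norm P242W55.proj (P242W39.key X)) res) P242W63.cut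

end Vale.Agent.P242W
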