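import Vale.Agent.P233.CD.Defs
import Mathlib.MeasureTheory.Constructions.UnitInterval
import Mathlib.Topology.ContinuousMap.Compact

/-!
# P242: test plans, weak upper gradients and `RCD(K,N)` as in the problem file
Curves are the elements of `C(I, X)`, `I = [0,1]`, with the Borel sigma-algebra of the uniform
distance.
-/

open MeasureTheory Set Filter Topology unitInterval
open scoped ENNReal NNReal

universe u

namespace Vale.Agent.P242W

section Curves

variable {X : Type u} [MetricSpace X]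

/-- The metric speed `|γ'|(t)`, the upper limit of `d(γ s, γ t) / |s - t|` as `s → t`. -/
noncomputable def speed (γ : C(I, X)) (t : I) : ℝ≥0∞ :=
  limsup (fun s => edist (γ s) (γ t) / edist s t) (𝓝[≠] t)

/-- `γ ∈ AC^p([0,1], X)`: `d(γ s, γ t) ≤ ∫_s^t g` for some `g ∈ L^p(0,1)`. -/
def IsAC (p : ℝ≥0∞) (γ : C(I, X)) : Prop :=
  ∃ g : I → ℝ, MemLp g p ∧ ∀ s t : I, s ≤ t → dist (γ s) (γ t) ≤ ∫ r in Icc s t, g r

/-- The curvilinear integral `∫_γ ρ = ∫₀¹ ρ(γ t) |γ'|(t) dt`. -/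
noncomputable def lineInt (ρ : X → ℝ≥0∞) (γ : C(I, X)) : ℝ≥0∞ := ∫⁻ t, ρ (γ t) * speed γ t

end Curves

variable {X : Type u} [MetricSpace X] [MeasurableSpace X]

/-- The `2`-modulus of a family of curves. -/
noncomputable def modulus (m : Measure X) (Γ : Set C(I, X)) : ℝ≥0∞ :=
  ⨅ (ρ : X → ℝ≥0∞) (_ : Measurable ρ) (_ : ∀ γ ∈ Γ, 1 ≤ lineInt ρ γ), ∫⁻ x, ρ x ^ 2 ∂m

/-- `f, G ∈ L²(m)` and `G ≥ 0`. -/
def Adm (m : Measure X) (f G : X → ℝ) : Prop := MemLp f 2 m ∧ MemLp G 2 m ∧ 0 ≤ᵐ[m] G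

/-- The upper gradient inequality `|f(γ 1) - f(γ 0)| ≤ ∫_γ G` along the curve `γ`. -/
def UG (f G : X → ℝ) (γ : C(I, X)) : Prop :=
  ‖f (γ 1) - f (γ 0)‖ₑ ≤ lineInt (fun x => ENNReal.ofReal (G x)) γ

/-- Newtonian weak upper gradient: a representative of `f` satisfies the upper gradient inequality
along all absolutely continuous curves outside a family of `2`-modulus zero. -/
def IsNewtonUG (m : Measure X) (f G : X → ℝ) : Prop :=
  Adm m f G ∧ ∃ f', f' =ᵐ[m] f ∧ modulus m {γ | IsAC 1 γ ∧ ¬UG f' G γ} = 0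

variable [MeasurableSpace C(I, X)]

/-- A test plan: a probability measure on curves with bounded compression `(e_t)_# π ≤ C m`,
concentrated on `AC²` curves, with finite kinetic energy. -/
structure IsTestPlan (m : Measure X) (π : Measure C(I, X)) : Prop where
  prob : IsProbabilityMeasure π
  comp : ∃ C : ℝ≥0, ∀ t : I, π.map (fun γ => γ t) ≤ C • m
  ac : ∀ᵐ γ ∂π, IsAC 2 γ
  energy : ∫⁻ γ, ∫⁻ t, speed γ t ^ 2 ∂volume ∂π < ∞

/-- Weak upper gradient (Ambrosio, Gigli, Savare): the upper gradient inequality holds for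
`π`-almost every curve, for every test plan `π`. -/
def IsWeakUG (m : Measure X) (f G : X → ℝ) : Prop :=
  Adm m f G ∧ ∀ π, IsTestPlan m π → ∀ᵐ γ ∂π, UG f G γ

/-- Weak upper gradient in integrated form (Gigli):
`∫ |f(γ 1) - f(γ 0)| dπ ≤ ∫ ∫₀¹ G(γ t) |γ'|(t) dt dπ` for every test plan `π`. -/
def IsIntUG (m : Measure X) (f G : X → ℝ) : Prop :=
  Adm m f G ∧ ∀ π, IsTestPlan m π →
    ∫⁻ γ, ‖f (γ 1) - f (γ 0)‖ₑ ∂π ≤ ∫⁻ γ, lineInt (fun x => ENNReal.ofReal (G x)) γ ∂π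

omit [MeasurableSpace C(I, X)]

/-- `G` is the minimal element, in the almost everywhere sense, among the `U`-gradients of `f`. -/
def IsMin (U : Measure X → (X → ℝ) → (X → ℝ) → Prop) (m : Measure X) (f G : X → ℝ) : Prop :=
  U m f G ∧ ∀ G', U m f G' → G ≤ᵐ[m] G'

/-- The Cheeger energy `½ ∫ |∇f|² dm`, `|∇f|` the minimal `U`-gradient of `f`; `∞` if there is
none. -/
noncomputable def Ch (U : Measure X → (X → ℝ) → (X → ℝ) → Prop) (m : Measure X) (f : X → ℝ) :
    ℝ≥0∞ :=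
  ⨅ (G : X → ℝ) (_ : IsMin U m f G), 2⁻¹ * ∫⁻ x, ‖G x‖ₑ ^ 2 ∂m

/-- `RCD(K,N)` as in the problem file, for the notion `U` of weak upper gradient: `X` is geodesic,
`m` has full support and is finite on bounded sets, `CD(K,N)` holds and the Cheeger energy is a
quadratic form on `L²(m)`. -/
structure IsRCD (U : Measure X → (X → ℝ) → (X → ℝ) → Prop) (m : Measure X) (K N : ℝ) :
    Prop where
  geodesic : ∀ x y : X, ∃ γ : C(I, X), γ 0 = x ∧ γ 1 = y ∧
    ∀ s t, dist (γ s) (γ t) = dist s t * dist x y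
  full : m.IsOpenPosMeasure
  fin : ∀ B, Bornology.IsBounded B → m B < ∞
  cd : P242.IsCD K N m
  quadratic : ∀ f g, MemLp f 2 m → MemLp g 2 m →
    Ch U m (f + g) + Ch U m (f - g) = 2 * Ch U m f + 2 * Ch U m g

end Vale.Agent.P242W
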