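import Vale.Agent.P242.H71.Final
import Vale.Agent.P242W.AGS
import Vale.Agent.P242W47.Spl
import Vale.Agent.P242W47.Spm
import Vale.Agent.P242W55.Ugl
import Vale.Agent.P242W72.Rows
import Vale.Agent.P242W76.New1

/-!
# P242W: the theorem of Ambrosio, Gigli and Savare, and the charts
-/

open MeasureTheory Set Filter Topology unitInterval Vale.Agent.P242.H719
open scoped ENNReal NNReal MeasureTheory

universe u

namespace Vale.Agent.P242W

theorem final (X : Type u) [MetricSpace X] [CompleteSpace X] [TopologicalSpace.SeparableSpace X]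
    [MeasurableSpace X] [BorelSpace X] [MeasurableSpace C(I, X)] [BorelSpace C(I, X)] :
    (∀ γ : C(I, X), IsAC 1 γ → ∀ᵐ t, speed γ t < ∞ ∧
      Tendsto (fun s => edist (γ s) (γ t) / edist s t) (𝓝[≠] t) (𝓝 (speed γ t))) ∧
    ∀ U ∈ ({IsWeakUG, IsIntUG, IsNewtonUG} : Set (Measure X → (X → ℝ) → (X → ℝ) → Prop)),
      (∀ m : Measure X, (∀ B, Bornology.IsBounded B → m B < ∞) → ∀ f G,
        (U m f G ↔ P233.T.IsRelaxedSlope m f G) ∧
        (U m f G → ∃ S, IsMin U m f S ∧ P233.T.IsMinSlope m f S ∧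
          (∀ S', IsMin U m f S' → S' =ᵐ[m] S) ∧ Ch U m f = 2⁻¹ * ∫⁻ x, ‖S x‖ₑ ^ 2 ∂m)) ∧
      ∀ n : ℕ, 2 ≤ n → ∀ (K : ℝ) (c : ℝ≥0), c ≠ 0 → IsRCD U (c • μH[(n : ℝ)]) K n →
        ∀ p : X, IsRegular n p → ∃ V : Set X, IsOpen V ∧ p ∈ V ∧ BiLipChart n 2 V := by
  have := UniformSpace.secondCountable_of_separable X
  have A := fun U hU m hm => all_iff (U := U) (m := m)
    (P242W76.new1 P242W55.ugl P242W47.spm1) (P242W72.new2 X) (hard_side X) hU hm
  refine ⟨fun γ hγ => (P242W47.spl γ hγ).1, fun U hU => ⟨fun m hm f G =>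
    ⟨A U hU m hm f G, fun h => ?_⟩, fun n hn K c hc h p hp => ?_⟩⟩
  · obtain ⟨h1, h2⟩ := min_slope (A U hU m hm) h
    refine ⟨_, h1, (isMin_iff (A U hU m hm) _ _).1 h1, h2, ?_⟩
    refine le_antisymm (iInf₂_le _ h1) (le_iInf₂ fun S hS => le_of_eq ?_)
    congr 1
    refine lintegral_congr_ae ?_
    filter_upwards [h2 S hS] with x hx
    rw [hx]
  · obtain ⟨h1, h2⟩ := h.unscale hc (A U hU _ h.fin) p
    exact P242.H71.final n hn X K h1 h2 p hp

end Vale.Agent.P242W
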