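import Vale.Agent.P242W.Rows
import Vale.Agent.P233Z.BScale

/-!
# P242W: glue of the rows
-/

open MeasureTheory Set Filter Topology unitInterval
open scoped ENNReal NNReal

universe u

namespace Vale.Agent.P242W

open P233.Met (RSlope Good)

variable {X : Type u} [MetricSpace X] [MeasurableSpace X]

section

variable [MeasurableSpace C(I, X)]

theorem IsTestPlan.mono {m m' : Measure X} {π : Measure C(I, X)} (h : IsTestPlan m' π)
    (hm : m' ≤ m) : IsTestPlan m π := by
  obtain ⟨C, hC⟩ := h.comp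
  refine ⟨h.prob, ⟨C, fun t => (hC t).trans fun A => ?_⟩, h.ac, h.energy⟩
  simp only [Measure.coe_nnreal_smul_apply]
  exact mul_le_mul_right (hm A) _

theorem res : RES X := by
  intro m m' f G φ hm hφ h0 h
  refine ⟨⟨hφ.comp_memLp h0 (h.1.1.mono_measure hm), h.1.2.1.mono_measure hm,
    (Measure.absolutelyContinuous_of_le hm).ae_le h.1.2.2⟩, fun π hπ => ?_⟩
  refine le_trans (lintegral_mono fun γ => ?_) (h.2 π (hπ.mono hm))
  have := hφ (f (γ 1)) (f (γ 0))
  rwa [ENNReal.coe_one, one_mul, edist_eq_enorm_sub, edist_eq_enorm_sub] at this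

theorem hard [BorelSpace X] (hPT : PT X) (hCUT : CUT X) : HARD X := by
  intro m hm f G h
  refine hCUT m f G h.1.1 h.1.2.1 fun x R N hR hN => ?_
  have : IsFiniteMeasure (m.restrict (Metric.ball x R)) :=
    isFiniteMeasure_restrict.2 (hm _ Metric.isBounded_ball).ne
  have hφ : LipschitzWith 1 fun r : ℝ => max (min r N) (-N) :=
    (LipschitzWith.id.min_const N).max_const (-N)
  refine hPT _ x R ?_ _ G N (fun y => ?_) (res m _ f G _ Measure.restrict_le_self hφ ?_ h)
  · filter_upwards [ae_restrict_mem Metric.isOpen_ball.measurableSet] with y hy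
    exact (Metric.mem_ball.1 hy).le
  · exact abs_le.2 ⟨le_max_right _ _, max_le (min_le_right _ _) (by linarith)⟩
  · rw [min_eq_left hN.le, max_eq_left (by linarith)]

/-- The three notions of weak upper gradient are the relaxed slopes. -/
theorem all_iff (h1 : NEW1 X) (h2 : NEW2 X) (h3 : HARD X)
    {U : Measure X → (X → ℝ) → (X → ℝ) → Prop}
    (hU : U ∈ ({IsWeakUG, IsIntUG, IsNewtonUG} : Set (Measure X → (X → ℝ) → (X → ℝ) → Prop)))
    {m : Measure X} (hm : ∀ B, Bornology.IsBounded B → m B < ∞) (f G : X → ℝ) :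
    U m f G ↔ P233.T.IsRelaxedSlope m f G := by
  rw [relaxed_iff]
  rcases hU with rfl | rfl | rfl
  · exact ⟨fun h => h3 m hm f G h.int, fun h => h2 m f G (h1 m f G h)⟩
  · exact ⟨h3 m hm f G, fun h => (h2 m f G (h1 m f G h)).int⟩
  · exact ⟨fun h => h3 m hm f G (h2 m f G h).int, h1 m f G⟩

end

variable [BorelSpace X] {U : Measure X → (X → ℝ) → (X → ℝ) → Prop} {m : Measure X}

theorem isMinSlope_slope {f G : X → ℝ} (h : P233.T.IsRelaxedSlope m f G) :
    P233.T.IsMinSlope m f (P233.T.slope m f) := by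
  have h1 : ∃ S, P233.T.IsMinSlope m f S := P233.Met.exists_rmin h
  unfold P233.T.slope P233.T.pick
  rw [dif_pos h1]
  exact h1.choose_spec

omit [BorelSpace X] in
theorem isMin_iff (hU : ∀ f G, U m f G ↔ P233.T.IsRelaxedSlope m f G) (f G : X → ℝ) :
    IsMin U m f G ↔ P233.T.IsMinSlope m f G := by
  unfold IsMin P233.T.IsMinSlope
  simp only [hU]

theorem min_slope (hU : ∀ f G, U m f G ↔ P233.T.IsRelaxedSlope m f G) {f G : X → ℝ}
    (h : U m f G) : IsMin U m f (P233.T.slope m f) ∧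
      ∀ S, IsMin U m f S → S =ᵐ[m] P233.T.slope m f := by
  have h1 := (isMin_iff hU _ _).2 (isMinSlope_slope ((hU f G).1 h))
  refine ⟨h1, fun S hS => ?_⟩
  filter_upwards [hS.2 _ h1.1, h1.2 _ hS.1] with x hx hy using le_antisymm hx hy

theorem ch_eq (hU : ∀ f G, U m f G ↔ P233.T.IsRelaxedSlope m f G) {f G : X → ℝ}
    (h : P233.T.IsRelaxedSlope m f G) :
    Ch U m f = 2⁻¹ * ENNReal.ofReal (∫ x, P233.T.slope m f x ^ 2 ∂m) := by
  obtain ⟨h1, h2⟩ := min_slope hU ((hU f G).2 h)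
  have hL : MemLp (P233.T.slope m f) 2 m := ((hU _ _).1 h1.1).2.1
  have e : ENNReal.ofReal (∫ x, P233.T.slope m f x ^ 2 ∂m) =
      ∫⁻ x, ‖P233.T.slope m f x‖ₑ ^ 2 ∂m := by
    rw [ofReal_integral_eq_lintegral_ofReal hL.integrable_sq
      (Eventually.of_forall fun x => sq_nonneg _)]
    refine lintegral_congr fun x => ?_
    rw [← sq_abs, ENNReal.ofReal_pow (abs_nonneg _), ← Real.enorm_eq_ofReal_abs]
  rw [e]
  refine le_antisymm (iInf₂_le _ h1) (le_iInf₂ fun S hS => le_of_eq ?_)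
  congr 1
  refine lintegral_congr_ae ?_
  filter_upwards [h2 S hS] with x hx
  rw [hx]

theorem IsRCD.cd_rcd (hU : ∀ f G, U m f G ↔ P233.T.IsRelaxedSlope m f G) {K N : ℝ}
    (h : IsRCD U m K N) (p : X) : P233.CD.IsRCD m K N := by
  refine ⟨⟨p⟩, fun x r => h.fin _ Metric.isBounded_ball, h.cd, ?_⟩
  rintro f g ⟨F, hF⟩ ⟨G, hG⟩
  have hf : P233.Met.W12 m f := ⟨F, hF⟩
  have hg : P233.Met.W12 m g := ⟨G, hG⟩
  obtain ⟨A, hA⟩ := hf.add hg
  obtain ⟨B, hB⟩ := hf.sub hg
  have q := h.quadratic f g hF.1 hG.1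
  rw [ch_eq hU (relaxed_iff.2 hA), ch_eq hU (relaxed_iff.2 hB), ch_eq hU hF, ch_eq hU hG] at q
  have i : ∀ {a A : X → ℝ}, P233.T.IsRelaxedSlope m a A →
      Integrable (fun x => P233.T.slope m a x ^ 2) m :=
    fun ha => MemLp.integrable_sq (isMinSlope_slope ha).1.2.1
  have n : ∀ a : X → ℝ, 0 ≤ ∫ x, P233.T.slope m a x ^ 2 ∂m :=
    fun a => integral_nonneg fun x => sq_nonneg _
  have e1 := integral_add (i (relaxed_iff.2 hA)) (i (relaxed_iff.2 hB))
  have e2 := integral_add ((i hF).const_mul 2) ((i hG).const_mul 2)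
  rw [integral_const_mul, integral_const_mul] at e2
  refine e1.trans (Eq.trans ?_ e2.symm)
  have q' := congrArg ENNReal.toReal q
  rw [ENNReal.toReal_add (by finiteness) (by finiteness),
    ENNReal.toReal_add (by finiteness) (by finiteness)] at q'
  simp only [ENNReal.toReal_mul, ENNReal.toReal_inv, ENNReal.toReal_ofNat,
    ENNReal.toReal_ofReal (n _)] at q'
  linarith

theorem IsRCD.unscale {c : ℝ≥0} (hc : c ≠ 0)
    (hU : ∀ f G, U (c • m) f G ↔ P233.T.IsRelaxedSlope (c • m) f G) {K N : ℝ}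
    (h : IsRCD U (c • m) K N) (p : X) : m.IsOpenPosMeasure ∧ P233.CD.IsRCD m K N := by
  have h1 := P233Z.isRCD_smul (inv_ne_zero hc) (h.cd_rcd hU p)
  have h2 := P233Z.full_smul (inv_ne_zero hc) h.full
  rw [P233Z.inv_smul_smul_measure hc] at h1 h2
  exact ⟨h2, h1⟩

end Vale.Agent.P242W
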